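import Vale.Agent.P146.H479.Val
import Vale.Agent.P146.H66.M4SK

/-!
# P146: the laws with all exponents in `[y, Y]` lie between two pure laws (helper758)

`tv K b` = total variance of `K` levels; `Pu n β x V` = free energy of the pure law with the
exponent `x` and one white field of the variance `V`.

* `fe_cm`: the law with constant exponents is the pure law with the total variances.
* `sandwich`: `Pu y V ≤ fe ≤ Pu Y V` for every `skS n K m b w` with exponents in `[y, Y]`, total
  bond variance `β² / n` and total field variance `V`.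
-/

open MeasureTheory ProbabilityTheory

namespace Vale.Agent.P146.H758

open Vale.Agent.P157 Vale.Agent.P157.Lv Vale.Agent.P157.Lv.Sy
open Vale.Agent.P146.H425 Vale.Agent.P146.H325 Vale.Agent.P146.R1 Vale.Agent.P146.U
open Vale.Agent.P146.H93 Vale.Agent.P146.H479
open Vale.Agent.P146.H66 (cm em_cm fe_mono_m)

set_option linter.unusedSectionVars false

/-- the total variance of the levels `1, …, K` -/
def tv (K : ℕ) (b : ℕ → ℝ) : ℝ := ∑ j ∈ Finset.range K, b (j + 1) ^ 2

lemma tv_nonneg (K : ℕ) (b : ℕ → ℝ) : 0 ≤ tv K b := Finset.sum_nonneg fun _ _ => sq_nonneg _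

lemma tv_congr {K : ℕ} {b b' : ℕ → ℝ} (h : ∀ j, 1 ≤ j → j ≤ K → b j = b' j) :
    tv K b = tv K b' := by
  refine Finset.sum_congr rfl fun j hj => ?_
  rw [h (j + 1) (by omega) (by have := Finset.mem_range.1 hj; omega)]

section chain

variable {κ : Type} [Fintype κ] {F : (κ → ℝ) → ℝ} {c : ℝ} {m : ℕ → ℝ} {v : ℕ → κ → ℝ}

/-- **A chain with one exponent is one layer.** -/
theorem VG_const (hF : Lip F) (hc : 0 < c) : ∀ d l, (∀ j, l < j → j ≤ l + d → m j = c) →
    VG m v F l d = VW c (fun e => √(∑ j ∈ Finset.range d, v (l + 1 + j) e ^ 2)) F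
  | 0, l, _ => by
    have e : (fun e : κ => √(∑ j ∈ Finset.range 0, v (l + 1 + j) e ^ 2)) = 0 := by
      funext e
      simp
    rw [e, VG_zero, VW_zero hc]
  | d + 1, l, h => by
    rw [VG_succ, h (l + 1) (by omega) (by omega),
      VG_const hF hc d (l + 1) (fun j h1 h2 => h j (by omega) (by omega))]
    refine VW_VW hF hc fun i => ?_
    rw [Real.sq_sqrt (Finset.sum_nonneg fun _ _ => sq_nonneg _),
      Real.sq_sqrt (Finset.sum_nonneg fun _ _ => sq_nonneg _), Finset.sum_range_succ']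
    rw [add_comm]
    congr 1
    refine Finset.sum_congr rfl fun j _ => ?_
    rw [show l + 1 + 1 + j = l + 1 + (j + 1) by omega]

end chain

variable {n K : ℕ} {m b w : ℕ → ℝ} {β x y Y V : ℝ}

/-- the law with constant exponents -/
theorem fe_cm (hK : 1 ≤ K) {c : ℝ} (hc : 0 < c) (hc1 : c ≤ 1) (b w : ℕ → ℝ) :
    (skS n K (cm K c) b w).fe =
      (skS n 1 (cm 1 c) (fun _ => √(tv K b)) (fun _ => √(tv K w))).fe := by
  rw [fe_eq (em_cm hK hc hc1), fe_eq (em_cm le_rfl hc hc1), VG_const (F0_lip n) hc K 0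
    (fun j h1 h2 => by
      unfold cm
      rw [if_neg (by omega), if_pos (by omega)]),
    VG_succ, VG_zero]
  have e1 : cm 1 c (0 + 1) = c := by
    unfold cm
    rw [if_neg (by omega), if_pos (by omega)]
  rw [e1]
  congr 1
  funext e
  rcases e with p | i
  · simp only [va_inl, tv, Nat.zero_add]
    congr 1
    refine Finset.sum_congr rfl fun j _ => ?_
    rw [show 1 + j = j + 1 by omega]
  · simp only [va_inr, tv, Nat.zero_add]
    congr 1
    refine Finset.sum_congr rfl fun j _ => ?_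
    rw [show 1 + j = j + 1 by omega]

/-- **The pure law** with the exponent `x` and the field variance `V`. -/
noncomputable def Pu (n : ℕ) (β x V : ℝ) : ℝ :=
  (skS n 1 (cm 1 x) (fun _ => β / √n) (fun _ => √V)).fe

/-- the pure law in the letters of any one-level system -/
theorem Pu_eq (hm : Em 1 m) (hb : b 1 = β / √n) (hw : w 1 = √V) :
    (skS n 1 m b w).fe = Pu n β (m 1) V := by
  have h1 : m 1 ≤ 1 := by
    have := hm.mono 1 le_rfl
    rwa [hm.mK] at this
  unfold Pu
  rw [fe_eq hm, fe_eq (em_cm le_rfl hm.pos h1), VG_succ, VG_zero, VG_succ, VG_zero]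
  have e1 : cm 1 (m 1) (0 + 1) = m 1 := by
    unfold cm
    rw [if_neg (by omega), if_pos (by omega)]
  rw [e1]
  congr 1
  funext e
  rcases e with p | i
  · rw [va_inl, va_inl]; exact hb
  · rw [va_inr, va_inr]; exact hw

/-- field variance `0` -/
theorem Pu_zero (hx : 0 < x) (hx1 : x ≤ 1) : Pu n β x 0 = W x 1 (Fsk n β) 0 := by
  unfold Pu
  rw [fe_one (em_cm le_rfl hx hx1) rfl Real.sqrt_zero]
  unfold cm
  rw [if_neg (by omega), if_pos (by omega)]

/-- the exponents of the levels `1, …, K` lie in `[y, Y]` -/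
structure Ex2 (K : ℕ) (m : ℕ → ℝ) (y Y : ℝ) : Prop where
  em : Em K m
  K1 : 1 ≤ K
  y0 : 0 < y
  Y1 : Y ≤ 1
  ge : y ≤ m 1
  le : m K ≤ Y

lemma em_mono (hm : Em K m) {i j : ℕ} (hij : i ≤ j) (hj : j ≤ K + 1) : m i ≤ m j := by
  induction j with
  | zero =>
    have : i = 0 := by omega
    rw [this]
  | succ j ih =>
    rcases Nat.lt_or_ge i (j + 1) with h | h
    · exact (ih (by omega) (by omega)).trans (hm.mono j (by omega))
    · have : i = j + 1 := by omega
      rw [this]

lemma Ex2.yj (h : Ex2 K m y Y) {j : ℕ} (h1 : 1 ≤ j) (h2 : j ≤ K) : y ≤ m j :=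
  h.ge.trans (em_mono h.em h1 (by omega))

lemma Ex2.Yj (h : Ex2 K m y Y) {j : ℕ} (h2 : j ≤ K) : m j ≤ Y :=
  (em_mono h.em h2 (by omega)).trans h.le

lemma Ex2.yY (h : Ex2 K m y Y) : y ≤ Y := (h.yj h.K1 le_rfl |>.trans h.le)

/-- **The sandwich.** -/
theorem sandwich (h : Ex2 K m y Y) (hβ : 0 ≤ β) (hb : tv K b = β ^ 2 / n) :
    Pu n β y (tv K w) ≤ (skS n K m b w).fe ∧ (skS n K m b w).fe ≤ Pu n β Y (tv K w) := by
  have hY : 0 < Y := h.y0.trans_le h.yY
  have e : √(tv K b) = β / √n := by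
    rw [hb, Real.sqrt_div (sq_nonneg _), Real.sqrt_sq hβ]
  have e1 : ∀ c : ℝ, 0 < c → c ≤ 1 → (skS n K (cm K c) b w).fe = Pu n β c (tv K w) := by
    intro c hc hc1
    rw [fe_cm h.K1 hc hc1, e]
    rfl
  rw [← e1 y h.y0 (h.yY.trans h.Y1), ← e1 Y hY h.Y1]
  constructor
  · refine fe_mono_m (em_cm h.K1 h.y0 (h.yY.trans h.Y1)) h.em (fun j h1 h2 => ?_) b w
    unfold cm
    rw [if_neg (by omega), if_pos h2]
    exact h.yj h1 h2
  · refine fe_mono_m h.em (em_cm h.K1 hY h.Y1) (fun j h1 h2 => ?_) b w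
    unfold cm
    rw [if_neg (by omega), if_pos h2]
    exact h.Yj h2

end Vale.Agent.P146.H758
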