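import Vale.Agent.P146.H758.Box
import Vale.Agent.P146.U.AP3
import Vale.Agent.P146.U.Ex3f

/-!
# P146: increments of the pure laws; the local energy (helper758)

`hinc` : `P1 y ≤ P1 x + C (n y⁵)` for all `n^(-1/6) ≤ x ≤ y ≤ n^(-1/10)` (the upper half), the
hypothesis `hinc` of the box bridge.
`loc_of` : the local energy `D` of a law from a lower bound of its free energy and an upper bound of
the pure law (two different constants).
-/

open MeasureTheory ProbabilityTheory Set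

namespace Vale.Agent.P146.H758

open Vale.Agent.P157 Vale.Agent.P157.Lv Vale.Agent.P157.Lv.Sy
open Vale.Agent.P146.H425 Vale.Agent.P146.H325 Vale.Agent.P146.R1 Vale.Agent.P146.U
open Vale.Agent.P146.H93 Vale.Agent.P146.H479

set_option linter.unusedSectionVars false

variable {n : ℕ} {β : ℝ}

/-- one octave of the pure laws -/
theorem incr1 (hβ : 0 ≤ β) (h2 : Ex2Out β) (hL : LStar β) : ∃ C : ℝ, ∃ n0 : ℕ, 0 < C ∧ 0 < n0 ∧
    ∀ n : ℕ, n0 ≤ n → ∀ x : ℝ, (n : ℝ) ^ (-(1 / 6) : ℝ) ≤ x → x ≤ (n : ℝ) ^ (-(1 / 10) : ℝ) →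
    P1 n β (2 * x) - P1 n β x ≤ C * (n * x ^ 5) := by
  obtain ⟨C, n0, hC, h⟩ := ex3 hβ h2 hL
  refine ⟨C, max n0 1, hC, by positivity, fun n hn x hx hx' => ?_⟩
  have h1 := h n ((le_max_left _ _).trans hn) x hx hx'
  have hn1 : 1 ≤ n := (le_max_right _ _).trans hn
  obtain ⟨hx0, -⟩ := f_x6 hn1 hx
  rwa [AP.P2_one hx0, AP.P2_one hx0] at h1

/-- **Increments of the pure laws.** -/
theorem hinc (hβ : 0 ≤ β) (h2 : Ex2Out β) (hL : LStar β) : ∃ C : ℝ, ∃ n0 : ℕ, 0 < C ∧ 0 < n0 ∧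
    ∀ n : ℕ, n0 ≤ n → ∀ x y : ℝ, (n : ℝ) ^ (-(1 / 6) : ℝ) ≤ x → x ≤ y →
    y ≤ (n : ℝ) ^ (-(1 / 10) : ℝ) → P1 n β y ≤ P1 n β x + C * (n * y ^ 5) := by
  obtain ⟨C, n0, hC, hn0, h⟩ := incr1 hβ h2 hL
  refine ⟨C, n0, hC, hn0, fun n hn x y hx hxy hy => ?_⟩
  have hn1 : 1 ≤ n := hn0.trans_le hn
  have hnR : (0 : ℝ) < n := by exact_mod_cast hn1
  have hx0 : 0 < x := (Real.rpow_pos_of_pos hnR _).trans_le hx
  -- induction on the number of octaves
  have key : ∀ k : ℕ, ∀ y : ℝ, x ≤ y → y ≤ 2 ^ k * x → y ≤ (n : ℝ) ^ (-(1 / 10) : ℝ) →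
      P1 n β y ≤ P1 n β x + C * (n * y ^ 5) := by
    intro k
    induction k with
    | zero =>
      intro y h1 h2 _
      have : y = x := le_antisymm (by simpa using h2) h1
      subst this
      have : 0 ≤ C * (n * y ^ 5) := by positivity
      linarith
    | succ k ih =>
      intro y h1 h2 h3
      have hy0 : 0 < y := hx0.trans_le h1
      rcases le_or_gt y (2 * x) with h4 | h4
      · have h5 := h n hn x hx (h1.trans h3)
        have h6 := P1_mono (n := n) (β := β) hy0 h4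
        have h7 : C * (n * x ^ 5) ≤ C * (n * y ^ 5) := by gcongr
        linarith
      · have h5 := ih (y / 2) (by linarith) (by rw [pow_succ] at h2; linarith) (by linarith)
        have h6 := h n hn (y / 2) (hx.trans (by linarith)) (by linarith)
        rw [show 2 * (y / 2) = y by ring] at h6
        have e : C * (n * (y / 2) ^ 5) = C * (n * y ^ 5) / 32 := by ring
        rw [e] at h5 h6
        have h7 : 0 ≤ C * (n * y ^ 5) := by positivity
        linarith
  obtain ⟨k, hk⟩ := pow_unbounded_of_one_lt (y / x) (by norm_num : (1 : ℝ) < 2)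
  refine key k y hxy ?_ hy
  rw [div_lt_iff₀ hx0] at hk
  exact hk.le

/-- **The local energy of a law**, from a lower bound `Bl` of its free energy (relative to the pure
law `a` without field) and an upper bound `Bu` of the pure law `Y`. -/
theorem loc_of {Y a Bl Bu D : ℝ} {K : ℕ} {m b w : ℕ → ℝ}
    (hD : P1 n β Y ≤ P1 n β a + D)
    (hup : Pu n β Y (tv K w) ≤ P1 n β Y + n / (2 * β) * tv K w + Bu)
    (hlo : P1 n β a + n / (2 * β) * tv K w - Bl ≤ (skS n K m b w).fe) :
    Pu n β Y (tv K w) ≤ (skS n K m b w).fe + (Bl + Bu + D) := by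
  linarith

end Vale.Agent.P146.H758
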