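import Vale.Agent.P146.H758.Box
import Vale.Agent.P146.H498.MRowSK

/-!
# P146: free energies with non-monotone exponents, and the entropies `eSK`, `eSKL` (helper758)

The identities `lg_eq`, `fe_eq` (helper479) for merely positive exponents; monotonicity of the free
energy in merely positive exponents; the bounds `eSK ≤ 2 m_1 D`, `eSKL ≤ 2 D ∑ m_(i+1)` for every
law with the exponents in `[y, Y]`, `D` = distance of its free energy from the pure law `Y`.
-/

open MeasureTheory ProbabilityTheory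

namespace Vale.Agent.P146.H758

open Vale.Agent.P157 Vale.Agent.P157.Lv Vale.Agent.P157.Lv.Sy
open Vale.Agent.P146.H425 Vale.Agent.P146.H325 Vale.Agent.P146.R1 Vale.Agent.P146.U
open Vale.Agent.P146.H93 Vale.Agent.P146.H479
open Vale.Agent.P146.H66 (cm em_cm)
open Vale.Agent.P146.H498.Row (eSK)
open Vale.Agent.P146.H498.MRow (eSKL)

set_option linter.unusedSectionVars false

section chain

variable {κ : Type} [Fintype κ] {F : (κ → ℝ) → ℝ} {x x' : ℝ} {m m' : ℕ → ℝ} {v : ℕ → κ → ℝ}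

/-- a layer is nondecreasing in its exponent (Jensen) -/
theorem VW_mono_x (h : Lip F) (hx : 0 < x) (hxx : x ≤ x') (v y : κ → ℝ) :
    VW x v F y ≤ VW x' v F y := by
  have hx' : 0 < x' := hx.trans_le hxx
  obtain ⟨B, hB⟩ : ∃ B, B = VW x' v F y := ⟨_, rfl⟩
  obtain ⟨θ, hθ⟩ : ∃ θ, θ = x / x' := ⟨_, rfl⟩
  have hθ0 : 0 ≤ θ := by rw [hθ]; positivity
  have hθ1 : θ ≤ 1 := by rw [hθ]; exact (div_le_one hx').2 hxx
  have hθm : θ * x' = x := by rw [hθ]; field_simp
  have e2 : ∫ z, Real.exp (x' * F (y + v * z)) ∂(gI κ) = Real.exp (x' * B) := by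
    rw [hB, exp_VW h hx']
  have h1 : ∀ z, Real.exp (x * F (y + v * z)) ≤ Real.exp (x * B) * ((1 - θ) + θ *
      (Real.exp (-(x' * B)) * Real.exp (x' * F (y + v * z)))) := by
    intro z
    have h2 := exp_mul_le_tangent hθ0 hθ1 (x' * (F (y + v * z) - B))
    have h3 : Real.exp (-(x' * B)) * Real.exp (x' * F (y + v * z)) =
        Real.exp (x' * (F (y + v * z) - B)) := by
      rw [← Real.exp_add]; congr 1; ring
    rw [h3]
    refine le_trans ?_ (mul_le_mul_of_nonneg_left h2 (Real.exp_pos _).le)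
    rw [← Real.exp_add, ← mul_assoc, hθm]
    refine Real.exp_le_exp.2 (le_of_eq ?_)
    ring
  have g1 := (egv h y v x).integrable
  have g2 := (egv h y v x').integrable
  have h4 : ∫ z, Real.exp (x * F (y + v * z)) ∂(gI κ) ≤ Real.exp (x * B) := by
    calc ∫ z, Real.exp (x * F (y + v * z)) ∂(gI κ)
        ≤ ∫ z, Real.exp (x * B) * ((1 - θ) + θ *
          (Real.exp (-(x' * B)) * Real.exp (x' * F (y + v * z)))) ∂(gI κ) :=
          integral_mono g1 (((integrable_const (1 - θ)).add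
            ((g2.const_mul _).const_mul _)).const_mul _) h1
      _ = Real.exp (x * B) * ((1 - θ) + θ * (Real.exp (-(x' * B)) * Real.exp (x' * B))) := by
          rw [integral_const_mul, integral_add (integrable_const _)
            ((g2.const_mul _).const_mul _), integral_const_mul, integral_const_mul, e2]
          simp
      _ = Real.exp (x * B) := by
          rw [← Real.exp_add]
          simp
  rw [← exp_VW h hx] at h4
  rw [← hB]
  exact le_of_mul_le_mul_left (Real.exp_le_exp.1 h4) hx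

/-- **A chain is nondecreasing in its (merely positive) exponents.** -/
theorem VG_mono_m (hF : Lip F) : ∀ d l, Pm m l d → (∀ j, l < j → j ≤ l + d → m j ≤ m' j) →
    ∀ y, VG m v F l d y ≤ VG m' v F l d y
  | 0, l, _, _, y => by rw [VG_zero, VG_zero]
  | d + 1, l, h, hm, y => by
    have h' : Pm m' l (d + 1) := fun j h1 h2 => (h j h1 h2).trans_le (hm j h1 h2)
    rw [VG_succ, VG_succ]
    have hL := Lip.VG (v := v) hF _ _ h.tail
    have hL' := Lip.VG (v := v) hF _ _ h'.tail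
    refine (VW_mono_x hL h.head (hm (l + 1) (by omega) (by omega)) _ _).trans ?_
    have h1 := VW_le hL hL' h'.head (r := 0) (y := y) (y' := y) (fun z => by
      rw [add_zero]
      exact VG_mono_m hF d (l + 1) h.tail (fun j h1 h2 => hm j (by omega) (by omega)) _)
      (v (l + 1))
    rwa [add_zero] at h1

end chain

variable {n K : ℕ} {m m' b w : ℕ → ℝ} {β x y Y V V1 A E M : ℝ}

/-- the log-weights are the chains, for positive exponents -/
theorem lg_eq_pm (hp : Pm m 0 K) : ∀ l ≤ K, ∀ ζ : Cd n K → ℝ,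
    (skS n K m b w).lg l ζ = VG m (va b w) (F0 n) l (K - l) (pos b w l ζ) := by
  refine down_ind (P := fun l => ∀ ζ : Cd n K → ℝ,
    (skS n K m b w).lg l ζ = VG m (va b w) (F0 n) l (K - l) (pos b w l ζ)) ?_ ?_
  · intro ζ
    have h1 := lg_top (skS n K m b w)
    rw [skS_K] at h1
    rw [h1, Nat.sub_self, VG_zero, top_eq]
  · intro l hl ih ζ
    have hlK : l < (skS n K m b w).K := hl
    rw [lg_step _ hlK]
    have hL : Lip (VG m (va b w) (F0 n) (l + 1) (K - (l + 1))) :=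
      Lip.VG (F0_lip n) _ _ (hp.mono (by omega) (by omega))
    have hmf : Measurable fun u => Real.exp (m (l + 1) *
        VG m (va b w) (F0 n) (l + 1) (K - (l + 1)) u) := (hL.exp_eg _).meas
    unfold stp
    rw [skS_m]
    have e1 : (fun z : Cd n K → ℝ => Real.exp (m (l + 1) * (skS n K m b w).lg (l + 1) z)) =
        fun z => (fun u => Real.exp (m (l + 1) *
          VG m (va b w) (F0 n) (l + 1) (K - (l + 1)) u)) (pos b w (l + 1) z) := by
      funext z
      simp only [ih z]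
    rw [e1, J_step hl hmf, show K - l = (K - (l + 1)) + 1 by omega, VG_succ]
    rfl

/-- **The free energy as a chain, for positive exponents.** -/
theorem fe_eq_pm (hp : Pm m 0 K) : (skS n K m b w).fe = VG m (va b w) (F0 n) 0 K 0 := by
  unfold Sy.fe
  have h2 : ∀ ζ : Cd n K → ℝ, pos b w 0 ζ = 0 := by
    intro ζ
    funext e
    unfold pos
    simp
  simp only [lg_eq_pm hp 0 (Nat.zero_le _), h2, Nat.sub_zero]
  simp

/-- **The free energy is nondecreasing in merely positive exponents.** -/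
theorem fe_mono_pm (hp : Pm m 0 K) (h : ∀ j, 1 ≤ j → j ≤ K → m j ≤ m' j) (b w : ℕ → ℝ) :
    (skS n K m b w).fe ≤ (skS n K m' b w).fe := by
  have hp' : Pm m' 0 K := fun j h1 h2 =>
    (hp j h1 h2).trans_le (h j (by omega) (by omega))
  rw [fe_eq_pm hp, fe_eq_pm hp']
  exact VG_mono_m (F0_lip n) K 0 hp (fun j h1 h2 => h j (by omega) (by omega)) 0

/-- the sandwich for merely positive exponents, upper side -/
theorem fe_le_Pu (hK : 1 ≤ K) (hp : Pm m 0 K) (hY1 : Y ≤ 1) (h : ∀ j, 1 ≤ j → j ≤ K → m j ≤ Y)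
    (hβ : 0 ≤ β) (hb : tv K b = β ^ 2 / n) : (skS n K m b w).fe ≤ Pu n β Y (tv K w) := by
  have hY : 0 < Y := (hp 1 (by omega) (by omega)).trans_le (h 1 le_rfl hK)
  have e : √(tv K b) = β / √n := by
    rw [hb, Real.sqrt_div (sq_nonneg _), Real.sqrt_sq hβ]
  have h1 := fe_cm (n := n) hK hY hY1 b w
  rw [e] at h1
  refine (fe_mono_pm hp (m' := cm K Y) (fun j h1 h2 => ?_) b w).trans_eq h1
  unfold cm
  rw [if_neg (by omega), if_pos h2]
  exact h j h1 h2

/-- **The increment of the free energy under a change of the exponents**, local form. -/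
theorem fe_inc_le (h : Ex2 K m y Y) (hβ : 0 ≤ β) (hb : tv K b = β ^ 2 / n) {D : ℝ}
    (hD : Pu n β Y (tv K w) ≤ (skS n K m b w).fe + D) (hp : Pm m' 0 K)
    (hm' : ∀ j, 1 ≤ j → j ≤ K → m' j ≤ Y) :
    (skS n K m' b w).fe - (skS n K m b w).fe ≤ D := by
  have h1 := fe_le_Pu (w := w) h.K1 hp h.Y1 hm' hβ hb
  linarith

/-- the local energy is at most `2 E` -/
lemma Ap.loc (hA : Ap n β y Y V1 A E) (h : Ex2 K m y Y) (hβ : 0 ≤ β)
    (hb : tv K b = β ^ 2 / n) (hV : tv K w ≤ V1) :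
    Pu n β Y (tv K w) ≤ (skS n K m b w).fe + 2 * E := by
  have h2 := (sandwich (w := w) h hβ hb).1
  have h3 := hA.lo _ (tv_nonneg K w) hV
  have h4 := hA.up _ (tv_nonneg K w) hV
  linarith

lemma Ex2.upd (h : Ex2 K m y Y) {i : ℕ} (hM : m (i + 1) < M) (hi : i < K) (hMY : M ≤ Y) :
    Pm (Function.update m (i + 1) M) 0 K ∧
      ∀ j, 1 ≤ j → j ≤ K → Function.update m (i + 1) M j ≤ Y := by
  have h0 : 0 < m (i + 1) := h.y0.trans_le (h.yj (by omega) (by omega))
  constructor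
  · intro j h1 h2
    by_cases hj : j = i + 1
    · rw [hj, Function.update_self]
      exact h0.trans hM
    · rw [Function.update_of_ne hj]
      exact h.y0.trans_le (h.yj (by omega) (by omega))
  · intro j h1 h2
    by_cases hj : j = i + 1
    · rw [hj, Function.update_self]
      exact hMY
    · rw [Function.update_of_ne hj]
      exact h.Yj h2

lemma Ap.E_nonneg (hA : Ap n β y Y V1 A E) (h : Ex2 K m y Y) (hβ : 0 ≤ β)
    (hb : tv K b = β ^ 2 / n) (hV : tv K w ≤ V1) : 0 ≤ E :=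
  (abs_nonneg _).trans (near hA h hβ hb hV)

/-- the local energy is nonnegative -/
lemma loc_nonneg (h : Ex2 K m y Y) (hβ : 0 ≤ β) (hb : tv K b = β ^ 2 / n) {D : ℝ}
    (hD : Pu n β Y (tv K w) ≤ (skS n K m b w).fe + D) : 0 ≤ D := by
  have := (sandwich (w := w) h hβ hb).2
  linarith

/-- the factor `m M / (M - m) ≤ 2 m` for `M ≥ 2 m` -/
lemma fac_le {m M : ℝ} (hm : 0 < m) (hM : 2 * m ≤ M) : m * M / (M - m) ≤ 2 * m := by
  have h1 : 0 < M - m := by linarith
  rw [div_le_iff₀ h1]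
  nlinarith

/-- one term of the entropy bounds -/
lemma term_le (h : Ex2 K m y Y) (hβ : 0 ≤ β) (hb : tv K b = β ^ 2 / n) {D : ℝ}
    (hD : Pu n β Y (tv K w) ≤ (skS n K m b w).fe + D) {i : ℕ} (hi : i < K)
    (hM : 2 * m (i + 1) ≤ M) (hMY : M ≤ Y) :
    m (i + 1) * M / (M - m (i + 1)) *
      ((skS n K (Function.update m (i + 1) M) b w).fe - (skS n K m b w).fe) ≤
      2 * m (i + 1) * D := by
  have h0 : 0 < m (i + 1) := h.y0.trans_le (h.yj (by omega) (by omega))
  have h1 : 0 < M - m (i + 1) := by linarith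
  obtain ⟨hp, hm'⟩ := h.upd (M := M) (by linarith) hi hMY
  have h2 := fe_inc_le h hβ hb hD hp hm'
  have hE := loc_nonneg h hβ hb hD
  have h3 : 0 ≤ m (i + 1) * M / (M - m (i + 1)) := by
    have : 0 < M := by linarith
    positivity
  calc _ ≤ m (i + 1) * M / (M - m (i + 1)) * D := mul_le_mul_of_nonneg_left h2 h3
    _ ≤ 2 * m (i + 1) * D := mul_le_mul_of_nonneg_right (fac_le h0 hM) hE

/-- **The entropy of the level one**: `eSK ≤ 2 m_1 D`. -/
theorem eSK_le (h : Ex2 K m y Y) (hβ : 0 ≤ β) (hb : tv K b = β ^ 2 / n) {D : ℝ}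
    (hD : Pu n β Y (tv K w) ≤ (skS n K m b w).fe + D) (hM : 2 * m 1 ≤ M) (hMY : M ≤ Y) :
    eSK n K m b w M ≤ 2 * m 1 * D :=
  term_le h hβ hb hD (i := 0) h.K1 hM hMY

/-- **The entropies of the levels `≤ l`**: `eSKL ≤ 2 D ∑ m_(i+1)`. -/
theorem eSKL_le (h : Ex2 K m y Y) (hβ : 0 ≤ β) (hb : tv K b = β ^ 2 / n) {D : ℝ}
    (hD : Pu n β Y (tv K w) ≤ (skS n K m b w).fe + D) {l : ℕ} (hl : l ≤ K) {M : ℕ → ℝ}
    (hM : ∀ i < l, 2 * m (i + 1) ≤ M i) (hMY : ∀ i < l, M i ≤ Y) :
    eSKL n K m b w M l ≤ 2 * D * ∑ i ∈ Finset.range l, m (i + 1) := by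
  unfold eSKL
  rw [Finset.mul_sum]
  refine Finset.sum_le_sum fun i hi => ?_
  have hi' := Finset.mem_range.1 hi
  refine (term_le h hβ hb hD (i := i) (by omega) (hM i hi') (hMY i hi')).trans_eq ?_
  ring

/-- the same with the sum estimated: `eSKL ≤ 2 l Y D` -/
theorem eSKL_le' (h : Ex2 K m y Y) (hβ : 0 ≤ β) (hb : tv K b = β ^ 2 / n) {D : ℝ}
    (hD : Pu n β Y (tv K w) ≤ (skS n K m b w).fe + D) {l : ℕ} (hl : l ≤ K) {M : ℕ → ℝ}
    (hM : ∀ i < l, 2 * m (i + 1) ≤ M i) (hMY : ∀ i < l, M i ≤ Y) :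
    eSKL n K m b w M l ≤ 2 * l * Y * D := by
  have h1 : ∑ i ∈ Finset.range l, m (i + 1) ≤ l * Y := by
    calc ∑ i ∈ Finset.range l, m (i + 1) ≤ ∑ _i ∈ Finset.range l, Y :=
          Finset.sum_le_sum fun i hi => h.Yj (by have := Finset.mem_range.1 hi; omega)
      _ = l * Y := by rw [Finset.sum_const, Finset.card_range, nsmul_eq_mul]
  have h2 := mul_le_mul_of_nonneg_left h1 (by
    have := loc_nonneg h hβ hb hD
    positivity : 0 ≤ 2 * D)
  refine (eSKL_le h hβ hb hD hl hM hMY).trans (h2.trans_eq ?_)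
  ring

end Vale.Agent.P146.H758
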