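import Vale.Agent.P146.H758.Sand
import Vale.Agent.P146.H94.OscSK

/-!
# P146: the box hypothesis of `cSK_near`, `cSK_osc`, `sel_gg` from the two pure laws (helper758)

* `Ap n β y Y V1 A E`: a priori bound: `A + (n/β) V/2 - E ≤ Pu y V` and `Pu Y V ≤ A + (n/β) V/2 + E`
  for `0 ≤ V ≤ V1`.
* `near`: every law with the exponents in `[y, Y]` has its free energy within `E` of
  `A + (n/β) V/2`, `V` its total field variance (`≤ V1`).
* `near_box`: the hypothesis `hE` of `cSK_near`, `cSK_osc` with `g = n / β`.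
* `resp`: all responses are within `4 E / R` of `n / β` on the box of radius `R`.
* `sel_box`: one point of the box with `gg_pp ≤ 64 |J| E / (m_p n² R²)` for all levels and laws.
-/

open MeasureTheory ProbabilityTheory

namespace Vale.Agent.P146.H758

open Vale.Agent.P157 Vale.Agent.P157.Lv Vale.Agent.P157.Lv.Sy
open Vale.Agent.P146.H425 Vale.Agent.P146.H325 Vale.Agent.P146.R1 Vale.Agent.P146.U
open Vale.Agent.P146.H93 Vale.Agent.P146.H479
open Vale.Agent.P146.H186 (amp amp_mem cSK sel_gg wc)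
open Vale.Agent.P146.H610.Win (Bx)

set_option linter.unusedSectionVars false

variable {n K : ℕ} {m b w : ℕ → ℝ} {β y Y V1 A E R : ℝ}

/-- the variance of the levels outside `P` -/
def rst (K : ℕ) (w : ℕ → ℝ) (P : Finset ℕ) : ℝ :=
  ∑ j ∈ (Finset.Icc 1 K).filter (· ∉ P), w j ^ 2

lemma rst_nonneg (K : ℕ) (w : ℕ → ℝ) (P : Finset ℕ) : 0 ≤ rst K w P :=
  Finset.sum_nonneg fun _ _ => sq_nonneg _

lemma tv_Icc (K : ℕ) (b : ℕ → ℝ) : tv K b = ∑ j ∈ Finset.Icc 1 K, b j ^ 2 := by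
  unfold tv
  rw [Finset.range_eq_Ico, Finset.sum_Ico_add' (fun j => b j ^ 2) 0 K 1]
  refine Finset.sum_congr ?_ fun _ _ => rfl
  ext j
  simp only [Finset.mem_Ico, Finset.mem_Icc]
  omega

/-- the total variance of `amp w P v` -/
lemma tv_amp (w : ℕ → ℝ) {P : Finset ℕ} (hP : ∀ p ∈ P, 1 ≤ p ∧ p ≤ K) {v : {p // p ∈ P} → ℝ}
    (hv : ∀ p, 0 ≤ v p) : tv K (amp w P v) = ∑ p, v p + rst K w P := by
  rw [tv_Icc, ← Finset.sum_filter_add_sum_filter_not (Finset.Icc 1 K) (· ∈ P)]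
  congr 1
  · have e : (Finset.Icc 1 K).filter (· ∈ P) = P := by
      ext j
      simp only [Finset.mem_filter, Finset.mem_Icc]
      exact ⟨fun h => h.2, fun h => ⟨hP j h, h⟩⟩
    rw [e, ← Finset.sum_coe_sort P]
    refine Finset.sum_congr rfl fun p _ => ?_
    rw [amp_mem, Real.sq_sqrt (hv p)]
  · refine Finset.sum_congr rfl fun j hj => ?_
    have h := (Finset.mem_filter.1 hj).2
    unfold amp
    rw [dif_neg h]

/-- **A priori bound of the two pure laws.** -/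
structure Ap (n : ℕ) (β y Y V1 A E : ℝ) : Prop where
  lo : ∀ V, 0 ≤ V → V ≤ V1 → A + n / β / 2 * V - E ≤ Pu n β y V
  up : ∀ V, 0 ≤ V → V ≤ V1 → Pu n β Y V ≤ A + n / β / 2 * V + E

/-- the free energy of every law with the exponents in `[y, Y]` -/
theorem near (hA : Ap n β y Y V1 A E) (h : Ex2 K m y Y) (hβ : 0 ≤ β)
    (hb : tv K b = β ^ 2 / n) (hV : tv K w ≤ V1) :
    |(skS n K m b w).fe - (A + n / β / 2 * tv K w)| ≤ E := by
  obtain ⟨h1, h2⟩ := sandwich (w := w) h hβ hb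
  have h3 := hA.lo _ (tv_nonneg K w) hV
  have h4 := hA.up _ (tv_nonneg K w) hV
  exact abs_le.2 ⟨by linarith, by linarith⟩

/-- two laws with the same total field variance -/
theorem fe_diff (hA : Ap n β y Y V1 A E) {K' : ℕ} {m' b' w' : ℕ → ℝ} (h : Ex2 K m y Y)
    (h' : Ex2 K' m' y Y) (hβ : 0 ≤ β) (hb : tv K b = β ^ 2 / n) (hb' : tv K' b' = β ^ 2 / n)
    (hV : tv K w ≤ V1) (hw : tv K' w' = tv K w) :
    |(skS n K' m' b' w').fe - (skS n K m b w).fe| ≤ 2 * E := by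
  have h1 := abs_le.1 (near hA h hβ hb hV)
  have h2 := abs_le.1 (near hA h' hβ hb' (w := w') (by rw [hw]; exact hV))
  rw [hw] at h2
  exact abs_le.2 ⟨by linarith [h1.1, h1.2, h2.1, h2.2], by linarith [h1.1, h1.2, h2.1, h2.2]⟩

/-- **The hypothesis `hE` of `cSK_near` and `cSK_osc`.** -/
theorem near_box (hA : Ap n β y Y V1 A E) (h : Ex2 K m y Y) (hβ : 0 ≤ β)
    (hb : tv K b = β ^ 2 / n) {P : Finset ℕ} (hP : ∀ p ∈ P, 1 ≤ p ∧ p ≤ K)
    {c : {p // p ∈ P} → ℝ} (hc : ∀ p, 2 * R ≤ c p)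
    (hV : rst K w P + ∑ p, (c p + 2 * R) ≤ V1) :
    ∀ v ∈ Bx c (2 * R), |(skS n K m b (amp w P v)).fe -
      ((A + n / β / 2 * rst K w P) + n / β / 2 * ∑ p, v p)| ≤ E := by
  intro v hv
  have hv0 : ∀ p, 0 ≤ v p := fun p => by linarith [(abs_le.1 (hv p)).1, hc p]
  have e := tv_amp w hP hv0
  have h1 : tv K (amp w P v) ≤ V1 := by
    rw [e]
    have : ∑ p, v p ≤ ∑ p, (c p + 2 * R) :=
      Finset.sum_le_sum fun p _ => by linarith [(abs_le.1 (hv p)).2]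
    linarith
  have h2 := near hA h hβ hb h1
  rw [e] at h2
  rwa [show (A + n / β / 2 * rst K w P) + n / β / 2 * ∑ p, v p =
    A + n / β / 2 * (∑ p, v p + rst K w P) by ring]

/-- **All responses are within `4 E / R` of `n / β`** on the box of radius `R`. -/
theorem resp (hA : Ap n β y Y V1 A E) (h : Ex2 K m y Y) (hβ : 0 ≤ β)
    (hb : tv K b = β ^ 2 / n) {P : Finset ℕ} (hP : ∀ p ∈ P, 1 ≤ p ∧ p ≤ K)
    {c : {p // p ∈ P} → ℝ} (hR : 0 < R) (hc : ∀ p, 2 * R < c p)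
    (hV : rst K w P + ∑ p, (c p + 2 * R) ≤ V1) {v : {p // p ∈ P} → ℝ} (hv : v ∈ Bx c R)
    (p : {p // p ∈ P}) : |cSK n K m b (amp w P v) p - n / β| ≤ 4 * E / R :=
  H94.Osc.cSK_near (n := n) h.em hP hR hc
    (near_box hA h hβ hb hP (fun p => (hc p).le) hV) hv p

/-- **One response**, without a box: all field variances of the law `≥ 2 R` on the level `p`. -/
theorem resp_one (hA : Ap n β y Y V1 A E) (h : Ex2 K m y Y) (hβ : 0 ≤ β)
    (hb : tv K b = β ^ 2 / n) {p : ℕ} (hp : 1 ≤ p) (hpK : p ≤ K) (hw0 : 0 < w p)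
    (hR : 0 < R) (hc : 2 * R < w p ^ 2) (hV : tv K w + 2 * R ≤ V1) :
    |cSK n K m b w p - n / β| ≤ 4 * E / R := by
  have hP : ∀ q ∈ ({p} : Finset ℕ), 1 ≤ q ∧ q ≤ K := by
    intro q hq
    rw [Finset.mem_singleton] at hq
    subst hq
    exact ⟨hp, hpK⟩
  set v : {q // q ∈ ({p} : Finset ℕ)} → ℝ := fun q => w q ^ 2 with hvd
  have hq : ∀ q : {q // q ∈ ({p} : Finset ℕ)}, (q : ℕ) = p := fun q => Finset.mem_singleton.1 q.2
  have e : amp w {p} v = w := by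
    funext l
    unfold amp
    by_cases hl : l ∈ ({p} : Finset ℕ)
    · rw [dif_pos hl]
      have : l = p := Finset.mem_singleton.1 hl
      subst this
      exact Real.sqrt_sq hw0.le
    · rw [dif_neg hl]
  have htv : tv K w = ∑ q, v q + rst K w {p} := by
    rw [← tv_amp w hP (fun q => sq_nonneg _), e]
  have hcard : ∑ q : {q // q ∈ ({p} : Finset ℕ)}, (v q + 2 * R) = ∑ q, v q + 2 * R := by
    rw [Finset.sum_add_distrib]
    simp
  have h1 := resp hA h hβ hb hP (w := w) (c := v) hR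
    (fun q => by rw [hvd]; simp only [hq q]; exact hc) (by rw [hcard]; linarith)
    (v := v) (fun q => by simp [hR.le]) ⟨p, Finset.mem_singleton_self p⟩
  rwa [e] at h1

/-- **The selection.** -/
theorem sel_box {J : Type} [Fintype J] [Nonempty J] (hn : 0 < n) (hβ : 0 ≤ β) {K : J → ℕ}
    {m b w : J → ℕ → ℝ} {y Y A : J → ℝ} (hE : 0 < E) (hA : ∀ j, Ap n β (y j) (Y j) V1 (A j) E)
    (h : ∀ j, Ex2 (K j) (m j) (y j) (Y j)) (hb : ∀ j, tv (K j) (b j) = β ^ 2 / n)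
    {P : Finset ℕ} (hP : ∀ j, ∀ p ∈ P, 1 ≤ p ∧ p ≤ K j)
    {c : {p // p ∈ P} → ℝ} (hR : 0 < R) (hc : ∀ p, 2 * R < c p)
    (hV : ∀ j, rst (K j) (w j) P + ∑ p, (c p + 2 * R) ≤ V1) :
    ∃ v : {p // p ∈ P} → ℝ, (∀ p, |v p - c p| < R) ∧
      (∀ j, tv (K j) (amp (w j) P v) ≤ V1) ∧
      (∀ j, ∀ p : {p // p ∈ P}, |cSK n (K j) (m j) (b j) (amp (w j) P v) p - n / β| ≤
        4 * E / R) ∧
      ∀ j, ∀ zc : ℕ → Fin n → Cd n (K j), ∀ p : {p // p ∈ P}, zc p = wc (hP j p p.2) →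
        H295.gg (skS n (K j) (m j) (b j) (amp (w j) P v)) (fun x i => H325.sp x i) zc
          (amp (w j) P v) p p ≤ 64 * Fintype.card J * E / (m j p * n ^ 2 * R ^ 2) := by
  have hδ : 0 < 8 * E / R := by positivity
  obtain ⟨v, hv, hg⟩ := sel_gg (n := n) hn (fun j => (h j).em) hP hR hδ
    (fun p => by linarith [hc p]) (fun j v hv p => H94.Osc.cSK_osc (n := n) (h j).em (hP j) hR hc
      (near_box (hA j) (h j) hβ (hb j) (hP j) (fun p => (hc p).le) (hV j)) hv p)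
  have hvB : v ∈ Bx c R := fun p => (hv p).le
  have hv0 : ∀ p, 0 ≤ v p := fun p => by linarith [(abs_le.1 (hvB p)).1, hc p]
  refine ⟨v, hv, fun j => ?_, fun j p => resp (hA j) (h j) hβ (hb j) (hP j) hR hc (hV j) hvB p,
    fun j zc p hz => (hg j zc p hz).trans_eq ?_⟩
  · rw [tv_amp (w j) (hP j) hv0]
    have h1 : ∑ p, v p ≤ ∑ p, (c p + 2 * R) :=
      Finset.sum_le_sum fun p _ => by linarith [(abs_le.1 (hvB p)).2]
    linarith [hV j]
  · field_simp
    ring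

end Vale.Agent.P146.H758
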